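import Crest.Agent.N337.S27.LY0D
import Crest.Agent.N337.LY.Pres

/-!
# Row 337, block (a1): Lee–Yang on the disc (and the Asano contraction on space-time)
-/

set_option autoImplicit false
set_option linter.unusedSectionVars false

namespace Crest.Agent.N337.DL

open Finset Equiv Function Crest.Agent.N337.Rep

lemma one_add_ne {u w : ℂ} (hu : ‖u‖ < 1) (hw : ‖w‖ < 1) : 1 + u * w ≠ 0 := by
  intro h
  have e : u * w = -1 := by linear_combination h
  have := congrArg norm e
  rw [norm_mul, norm_neg, norm_one] at this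
  nlinarith [norm_nonneg u, norm_nonneg w]

lemma one_add_ne_re {u w : ℂ} (hu : 0 < u.re) (hw : 0 < w.re) : 1 + u * w ≠ 0 := by
  intro h
  have h0 : w ≠ 0 := fun h => by simp [h] at hw
  have h1 : u = -w⁻¹ := by field_simp; linear_combination h
  have h2 := LY.re_inv_pos hw
  rw [h1, Complex.neg_re] at hu
  linarith

lemma cay_ne {w s : ℂ} (hw : ‖w‖ < 1) (hs : 0 < s.re) : (1 - w) + (1 + w) * s ≠ 0 := by
  intro h
  have e : 1 + s = w * (1 - s) := by linear_combination h
  have h1 := congrArg Complex.normSq e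
  rw [map_mul] at h1
  have h2 : Complex.normSq w < 1 := by
    rw [← Complex.sq_norm]; nlinarith [norm_nonneg w]
  have h3 := Complex.normSq_nonneg (1 - s)
  have h4 : Complex.normSq (1 + s) = Complex.normSq (1 - s) + 4 * s.re := by
    simp [Complex.normSq_apply]; ring
  nlinarith

lemma cay_re {u : ℂ} (hu : ‖u‖ < 1) : 0 < ((1 + u) / (1 - u)).re := by
  have h0 : 1 - u ≠ 0 := fun h => by
    have : u = 1 := by linear_combination -h
    simp [this] at hu
  have h2 : Complex.normSq u < 1 := by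
    rw [← Complex.sq_norm]; nlinarith [norm_nonneg u]
  rw [Complex.div_re, ← add_div]
  refine div_pos ?_ (Complex.normSq_pos.2 h0)
  rw [Complex.normSq_apply] at h2
  simp; nlinarith

lemma two_disc {u1 u2 w1 w2 : ℂ} (h1 : ‖u1‖ < 1) (h2 : ‖u2‖ < 1) (k1 : ‖w1‖ < 1) (k2 : ‖w2‖ < 1)
    {p : ℝ} (hp0 : 0 ≤ p) (hp1 : p ≤ 1) :
    (1 - p) * ((1 + u1 * w1) * (1 + u2 * w2)) + p * ((1 + u1 * w2) * (1 + u2 * w1)) ≠ 0 := by
  have hn : ∀ u : ℂ, ‖u‖ < 1 → 1 - u ≠ 0 := fun u hu h => by
    have : u = 1 := by linear_combination -h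
    simp [this] at hu
  have k := LY.two_var (A := (1 - w1) * (1 - w2)) (B := (1 + w1) * (1 - w2))
    (C := (1 - w1) * (1 + w2)) (D := (1 + w1) * (1 + w2))
    (fun v1 v2 a b h => mul_ne_zero (cay_ne k1 a) (cay_ne k2 b) (by linear_combination h))
    hp0 hp1 (cay_re h1) (cay_re h2)
  intro h
  apply k
  have e1 := hn _ h1
  have e2 := hn _ h2
  field_simp
  linear_combination 4 * h

lemma two_half {u1 u2 w1 w2 : ℂ} (h1 : 0 < u1.re) (h2 : 0 < u2.re) (k1 : 0 < w1.re)
    (k2 : 0 < w2.re) {p : ℝ} (hp0 : 0 ≤ p) (hp1 : p ≤ 1) :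
    (1 - p) * ((1 + u1 * w1) * (1 + u2 * w2)) + p * ((1 + u1 * w2) * (1 + u2 * w1)) ≠ 0 := by
  have k := LY.two_var (A := 1) (B := w1) (C := w2) (D := w1 * w2)
    (fun v1 v2 a b h => mul_ne_zero (one_add_ne_re a k1) (one_add_ne_re b k2)
      (by linear_combination h)) hp0 hp1 h1 h2
  intro h
  apply k
  linear_combination h

/-- Asano contraction on the disc. -/
lemma asano_disc {a b c d : ℂ}
    (h : ∀ u w : ℂ, ‖u‖ < 1 → ‖w‖ < 1 → a + b * w + c * u + d * (u * w) ≠ 0) {z : ℂ}
    (hz : ‖z‖ < 1) : a + d * z ≠ 0 := by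
  intro h0
  have ha : a ≠ 0 := by simpa using h 0 0 (by simp) (by simp)
  have hd : d ≠ 0 := fun hd => ha (by simpa [hd] using h0)
  obtain ⟨s, hs⟩ := IsAlgClosed.exists_pow_nat_eq ((b + c) ^ 2 - 4 * a * d) (n := 2) (by norm_num)
  have r1 : ¬ ‖(-(b + c) + s) / (2 * d)‖ < 1 := fun h1 => h _ _ h1 h1 (by
    field_simp; linear_combination hs)
  have r2 : ¬ ‖(-(b + c) - s) / (2 * d)‖ < 1 := fun h1 => h _ _ h1 h1 (by
    field_simp; linear_combination hs)
  have e : (-(b + c) + s) / (2 * d) * ((-(b + c) - s) / (2 * d)) = -z := by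
    field_simp; linear_combination (-1 : ℂ) * hs + 4 * d * h0
  have := congrArg norm e
  rw [norm_mul, norm_neg] at this
  push Not at r1 r2
  nlinarith

/-- Asano contraction on the half plane, with a sink, a fugacity and a source. -/
lemma asano_half {a b c d : ℂ}
    (h : ∀ u w : ℂ, 0 < u.re → 0 < w.re → a + b * w + c * u + d * (u * w) ≠ 0) {s t : ℂ}
    (hs : 0 < s.re) (ht : 0 < t.re) {β : ℝ} (hβ : 0 ≤ β) :
    a + b * t + c * s + d * (β + s * t) ≠ 0 := by
  by_cases hd : d = 0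
  · simpa [hd] using h s t hs ht
  intro h0
  have h' : ∀ v1 v2 : ℂ, 0 < v1.re → 0 < v2.re →
      (v1 + b / d) * (v2 + c / d) ≠ b / d * (c / d) - a / d := by
    intro v1 v2 h1 h2 e
    apply h v1 v2 h1 h2
    have : a + b * v2 + c * v1 + d * (v1 * v2) =
      d * ((v1 + b / d) * (v2 + c / d) - (b / d * (c / d) - a / d)) := by field_simp; ring
    rw [this, e, sub_self, mul_zero]
  have h'' : ∀ v1 v2 : ℂ, 0 < v1.re → 0 < v2.re →
      (v1 + c / d) * (v2 + b / d) ≠ b / d * (c / d) - a / d := by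
    intro v1 v2 h1 h2 e
    exact h' v2 v1 h2 h1 (by linear_combination e)
  have hB := LY.nec_re h'
  have hC := LY.nec_re h''
  have hE := LY.nec_E h' hB hC
  set E := b / d * (c / d) - a / d with hE'
  have e : (s + b / d) * (t + c / d) = E - β := by
    rw [hE']; field_simp; linear_combination d * h0
  have k1 := LY.re_mul_le_norm (s + b / d) (t + c / d)
  have k2 : ‖E - β‖ ≤ ‖E‖ + β := by
    refine (norm_sub_le _ _).trans ?_
    rw [Complex.norm_real, Real.norm_of_nonneg hβ]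
  rw [e, Complex.sub_re, Complex.ofReal_re, Complex.add_re, Complex.add_re] at k1
  nlinarith [mul_pos hs ht, mul_nonneg hs.le hB, mul_nonneg ht.le hC]

variable {Λ : Type} [Fintype Λ] [DecidableEq Λ] {T : ℕ} [NeZero T] (ex ey : Fin T → Λ)

/-- the space-time sum with one `2 × 2` array `φ v (out) (in)` at every point. -/
def Lw {R : Type} [CommRing R] (w : (Fin T → Bool) → R) (φ : Fin T × Λ → Bool → Bool → R) : R :=
  ∑ ξ, w ξ * ∑ n : Fin T × Λ → Bool, ∏ v, φ v (n (Sg ex ey ξ v)) (n v)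

lemma Lw_update {R : Type} [CommRing R] (w : (Fin T → Bool) → R)
    (φ : Fin T × Λ → Bool → Bool → R) (x : Fin T × Λ) :
    ∃ c00 c01 c10 c11 : R, ∀ ψ : Bool → Bool → R, Lw ex ey w (update φ x ψ) =
      ψ false false * c00 + ψ false true * c01 + ψ true false * c10 + ψ true true * c11 := by
  let E : Bool → Bool → R := fun a b =>
    Lw ex ey w (update φ x fun i j => if i = a ∧ j = b then 1 else 0)
  have key : ∀ (ψ : Bool → Bool → R) (m n : Fin T × Λ → Bool),
      ∏ v, update φ x ψ v (m v) (n v) = ψ (m x) (n x) * ∏ v ∈ univ.erase x, φ v (m v) (n v) := by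
    intro ψ m n
    rw [← mul_prod_erase _ _ (mem_univ x), update_self]
    congr 1
    exact prod_congr rfl fun z hz => by rw [update_of_ne (ne_of_mem_erase hz)]
  refine ⟨E false false, E false true, E true false, E true true, fun ψ => ?_⟩
  simp only [E, Lw, mul_sum, ← sum_add_distrib]
  refine sum_congr rfl fun ξ _ => sum_congr rfl fun n _ => ?_
  simp only [key _ (fun v => n (Sg ex ey ξ v)) n]
  cases n (Sg ex ey ξ x) <;> cases n x <;> simp <;> ring

/-- rank-one arrays. -/
def rk (u w : ℂ) : Bool → Bool → ℂ := fun i j =>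
  (if i = true then u else 1) * (if j = true then w else 1)

lemma Lw_rk (p : Fin T → ℝ) (u w : Fin T × Λ → ℂ) :
    Lw ex ey (fun ξ => (Pw p ξ : ℂ)) (fun v => rk (u v) (w v)) =
      ∏ s, (p s * ∏ x, (1 + u (s, x) * w (s + 1, swap (ex s) (ey s) x)) +
        (1 - p s) * ∏ x, (1 + u (s, x) * w (s + 1, x))) := by
  have h1 : ∀ π : Perm (Fin T × Λ), ∑ n : Fin T × Λ → Bool, ∏ v, rk (u v) (w v) (n (π v)) (n v) =
      ∏ v, (1 + u v * w (π v)) := by
    intro π
    have h := LY0.prod_two fun v b => if b = true then u (π.symm v) * w v else 1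
    simp only [if_true, Bool.false_eq_true, if_false] at h
    rw [← Equiv.prod_comp π.symm fun v => 1 + u v * w (π v)]
    simp only [apply_symm_apply, add_comm (1 : ℂ), h]
    refine sum_congr rfl fun n _ => ?_
    simp only [rk, prod_mul_distrib]
    rw [← Equiv.prod_comp π.symm fun v => if n (π v) = true then u v else 1, ← prod_mul_distrib]
    refine prod_congr rfl fun v _ => ?_
    simp only [apply_symm_apply]
    split_ifs <;> simp
  have h2 := LY0.prod_two fun s b => (wb (p s) b : ℂ) *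
    ∏ x, (1 + u (s, x) * w (s + 1, sg (ex s) (ey s) b x))
  simp only [Lw, h1]
  simp only [Fintype.prod_prod_type, Sg_apply, Pw, Complex.ofReal_prod,
    ← prod_mul_distrib, ← h2]
  simp [wb, sg]

lemma step_ne (S : ℂ → Prop) (h1 : ∀ u w, S u → S w → 1 + u * w ≠ 0) {p : ℝ}
    (h2 : ∀ u1 u2 w1 w2, S u1 → S u2 → S w1 → S w2 →
      (1 - p) * ((1 + u1 * w1) * (1 + u2 * w2)) + p * ((1 + u1 * w2) * (1 + u2 * w1)) ≠ 0)
    (a b : Λ) {u w : Λ → ℂ} (hu : ∀ x, S (u x)) (hw : ∀ x, S (w x)) :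
    p * ∏ x, (1 + u x * w (swap a b x)) + (1 - p) * ∏ x, (1 + u x * w x) ≠ 0 := by
  by_cases hab : a = b
  · subst hab
    have := prod_ne_zero_iff.2 fun x (_ : x ∈ univ) => h1 _ _ (hu x) (hw x)
    intro h; apply this
    simp only [swap_self, refl_apply] at h
    linear_combination h
  have hb : b ∈ univ.erase a := mem_erase.2 ⟨Ne.symm hab, mem_univ _⟩
  have e : ∏ x ∈ (univ.erase a).erase b, (1 + u x * w (swap a b x)) =
      ∏ x ∈ (univ.erase a).erase b, (1 + u x * w x) := prod_congr rfl fun x hx => by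
    rw [swap_apply_of_ne_of_ne (ne_of_mem_erase (mem_of_mem_erase hx)) (ne_of_mem_erase hx)]
  rw [← mul_prod_erase _ _ (mem_univ a), ← mul_prod_erase _ _ hb,
    ← mul_prod_erase _ _ (mem_univ a), ← mul_prod_erase _ _ hb, e, swap_apply_left,
    swap_apply_right]
  have h3 := prod_ne_zero_iff.2 fun x (_ : x ∈ (univ.erase a).erase b) => h1 _ _ (hu x) (hw x)
  intro h
  exact mul_ne_zero (h2 _ _ _ _ (hu a) (hu b) (hw a) (hw b)) h3 (by linear_combination h)

/-- contraction at every space-time point. -/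
theorem contract (S : ℂ → Prop) (hS : ∃ z, S z) {w : (Fin T → Bool) → ℂ}
    (h0 : ∀ u u' : Fin T × Λ → ℂ, (∀ v, S (u v)) → (∀ v, S (u' v)) →
      Lw ex ey w (fun v => rk (u v) (u' v)) ≠ 0)
    {φ : Fin T × Λ → Bool → Bool → ℂ}
    (hφ : ∀ v (a b c d : ℂ), (∀ u u', S u → S u' → a + b * u' + c * u + d * (u * u') ≠ 0) →
      φ v false false * a + φ v false true * b + φ v true false * c + φ v true true * d ≠ 0) :
    Lw ex ey w φ ≠ 0 := by
  have key : ∀ A : Finset (Fin T × Λ), ∀ u u' : Fin T × Λ → ℂ, (∀ v, S (u v)) → (∀ v, S (u' v)) →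
      Lw ex ey w (fun v => if v ∈ A then φ v else rk (u v) (u' v)) ≠ 0 := by
    intro A
    induction A using Finset.induction_on with
    | empty => simpa using h0
    | insert x A hx ih =>
      intro u u' hu hu'
      obtain ⟨c00, c01, c10, c11, hc⟩ :=
        Lw_update ex ey w (fun z => if z ∈ A then φ z else rk (u z) (u' z)) x
      have e : (fun z => if z ∈ insert x A then φ z else rk (u z) (u' z)) =
          update (fun z => if z ∈ A then φ z else rk (u z) (u' z)) x (φ x) := by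
        funext z
        rcases eq_or_ne z x with rfl | h
        · simp
        · simp [update_of_ne h, h]
      rw [e, hc]
      refine hφ x _ _ _ _ fun a b ha hb => ?_
      have hup : ∀ (f : Fin T × Λ → ℂ) (c : ℂ), (∀ v, S (f v)) → S c → ∀ v, S (update f x c v) :=
        fun f c hf hc' z => by
          rcases eq_or_ne z x with rfl | h
          · simpa using hc'
          · rw [update_of_ne h]; exact hf z
      have h2 := ih _ _ (hup u a hu ha) (hup u' b hu' hb)
      have e' : (fun z => if z ∈ A then φ z else rk (update u x a z) (update u' x b z)) =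
          update (fun z => if z ∈ A then φ z else rk (u z) (u' z)) x (rk a b) := by
        funext z
        rcases eq_or_ne z x with rfl | h
        · simp [hx]
        · simp [update_of_ne h]
      rw [e', hc] at h2
      intro h; apply h2
      simp only [rk]; simp; linear_combination h
  obtain ⟨z, hz⟩ := hS
  simpa using key univ (fun _ => z) (fun _ => z) (fun _ => hz) fun _ => hz

/-- the partition function with weights in any ring. -/
def Zr {R : Type} [CommRing R] (w : (Fin T → Bool) → R) (b : Fin T × Λ → R) : R :=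
  ∑ ξ, w ξ * ∑ n : Fin T × Λ → Bool,
    if ∀ v, n (Sg ex ey ξ v) = n v then ∏ v, (if n v = true then b v else 1) else 0

lemma Zr_eq_Lw {R : Type} [CommRing R] (w : (Fin T → Bool) → R) (b : Fin T × Λ → R) :
    Zr ex ey w b = Lw ex ey w fun v i j => if i = j then (if j = true then b v else 1) else 0 := by
  simp only [Zr, Lw, prod_ite_zero, mem_univ, true_imp_iff]

variable {p : Fin T → ℝ}

theorem disc_open (hp : ∀ s, 0 ≤ p s ∧ p s ≤ 1) {b : Fin T × Λ → ℂ} (hb : ∀ v, ‖b v‖ < 1) :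
    Zr ex ey (fun ξ => (Pw p ξ : ℂ)) b ≠ 0 := by
  rw [Zr_eq_Lw]
  refine contract ex ey (fun z => ‖z‖ < 1) ⟨0, by simp⟩ (fun u u' hu hu' => ?_)
    fun v a b' c d h => ?_
  · rw [Lw_rk]
    exact prod_ne_zero_iff.2 fun s _ => step_ne (fun z => ‖z‖ < 1) (fun _ _ => one_add_ne)
      (fun _ _ _ _ a b c d => two_disc a b c d (hp s).1 (hp s).2) (ex s) (ey s)
      (u := fun x => u (s, x)) (w := fun x => u' (s + 1, x)) (fun x => hu _) fun x => hu' _
  · have := asano_disc h (hb v)
    intro h'; apply this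
    simp at h'; linear_combination h'

/-- gauge invariance. -/
lemma Zr_gauge (w : (Fin T → Bool) → ℂ) (b : Fin T × Λ → ℂ) {γ : Fin T → ℂ} (hγ : ∀ s, γ s ≠ 0) :
    Zr ex ey w (fun v => γ v.1 / γ (v.1 - 1) * b v) = Zr ex ey w b := by
  unfold Zr
  refine sum_congr rfl fun ξ _ => ?_
  congr 1
  refine sum_congr rfl fun n _ => ?_
  split_ifs with h
  · have e : ∏ v, (if n v = true then γ (v.1 - 1) else 1) =
        ∏ v : Fin T × Λ, (if n v = true then γ v.1 else 1) := by
      rw [← Equiv.prod_comp (Sg ex ey ξ)]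
      refine prod_congr rfl fun v _ => ?_
      rw [h v]
      obtain ⟨s, x⟩ := v
      simp [Sg_apply]
    have hne : ∏ v : Fin T × Λ, (if n v = true then γ v.1 else 1) ≠ 0 :=
      prod_ne_zero_iff.2 fun v _ => by split_ifs; exacts [hγ _, one_ne_zero]
    refine mul_left_cancel₀ hne ?_
    conv_lhs => rw [← e]
    rw [← prod_mul_distrib, ← prod_mul_distrib]
    refine prod_congr rfl fun v _ => ?_
    have := hγ (v.1 - 1)
    split_ifs
    · field_simp
    · rfl
  · rfl

/-- **(a1)** Lee–Yang on the disc. -/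
theorem disc (hp : ∀ s, 0 ≤ p s ∧ p s ≤ 1) {b : Fin T × Λ → ℂ} (hb : ∀ v, ‖b v‖ ≤ 1)
    (hb0 : ∀ x, ‖b (0, x)‖ < 1) : Zr ex ey (fun ξ => (Pw p ξ : ℂ)) b ≠ 0 := by
  obtain ⟨θ, ⟨h0, h1⟩, h2⟩ : ∃ θ : ℝ, (0 < θ ∧ θ < 1) ∧ ∀ x, ‖b (0, x)‖ < θ ^ T := by
    have e : ∀ᶠ θ in nhds (1 : ℝ), ∀ x, ‖b (0, x)‖ < θ ^ T :=
      Filter.eventually_all.2 fun x => (continuous_pow T).continuousAt.eventually
        (lt_mem_nhds (by simpa using hb0 x))
    have e' : ∀ᶠ θ in nhdsWithin (1 : ℝ) (Set.Iio 1), 0 < θ ∧ θ < 1 :=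
      Ioo_mem_nhdsLT (zero_lt_one' ℝ)
    exact (e'.and (e.filter_mono nhdsWithin_le_nhds)).exists
  have hθ : (θ : ℂ) ≠ 0 := by exact_mod_cast h0.ne'
  rw [← Zr_gauge ex ey _ b (γ := fun s => (θ : ℂ) ^ s.val) fun s => pow_ne_zero _ hθ]
  refine disc_open ex ey hp fun ⟨s, x⟩ => ?_
  simp only [norm_mul, norm_div, norm_pow, Complex.norm_real, Real.norm_of_nonneg h0.le]
  by_cases hs : s = 0
  · subst hs
    rw [div_mul_eq_mul_div, div_lt_one (by positivity), Fin.val_zero, pow_zero, one_mul]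
    exact (h2 x).trans_le (pow_le_pow_of_le_one h0.le h1.le (Fin.isLt _).le)
  · have e : s.val = (s - 1).val + 1 := by
      obtain ⟨n, rfl⟩ : ∃ n, T = n + 1 := Nat.exists_eq_succ_of_ne_zero (NeZero.ne T)
      rw [Fin.coe_sub_one, if_neg hs]
      have : s.val ≠ 0 := fun h => hs (Fin.ext h)
      omega
    rw [e, pow_succ, mul_div_cancel_left₀ _ (by positivity)]
    nlinarith [hb (s, x), norm_nonneg (b (s, x))]

end Crest.Agent.N337.DL
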