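import Crest.Agent.N337.DL.Disc
import Crest.Agent.N337.W.N0

/-!
# Row 337: Lee–Yang / Gaussian domination for `θ = 2` with sources at many times

`Ft p s t b = ∑ ξ, Pw p ξ * ∏ loops Tr (mv s t b)`; no zeros off the negative axis.
-/

set_option autoImplicit false
set_option linter.unusedSectionVars false

namespace Crest.Agent.N337.DL

open Finset Equiv Function Matrix Crest.Agent.N337.Rep Crest.Agent.N337.LY0

section gen
variable {S : Type} [Fintype S] [DecidableEq S] {R : Type} [CommRing R]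

lemma Tr_congr (π : Perm S) {g g' : S → M2 R} {c : Orb π} (h : ∀ v, o π v = c → g v = g' v) :
    Tr π g c = Tr π g' c := by
  rw [Tr, Tr, Pc, Pc, Pk_congr fun i _ => h _ ((o_it π i _).trans (o_bp c))]

lemma Tr_update' (π : Perm S) (U : S → M2 R) (u : S) : ∃ P : M2 R,
    ∀ G, Tr π (update U u G) (o π u) = (G * P).trace := by
  obtain ⟨k, hk⟩ : ∃ k, per π (π u) = k + 1 :=
    ⟨_, (Nat.succ_pred_eq_of_pos (per_pos π (π u))).symm⟩
  have h0 : π^[k] (π u) = u := by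
    have := it_per π (π u)
    rw [hk, Function.iterate_succ_apply'] at this
    exact π.injective this
  refine ⟨Pk (fun i => U (π^[i] (π u))) k, fun G => ?_⟩
  rw [← o_apply π u, Tr_eq, Pc, hk, Pk_succ, h0, update_self, Pk_congr]
  intro i hi
  refine update_of_ne (fun h => ?_) _ _
  have := it_inj (x := π u) (i := i) (j := k) (by omega) (by omega) (h.trans h0.symm)
  omega

/-- product of the traces of the monodromies. -/
noncomputable def Tp (π : Perm S) (g : S → M2 R) : R := ∏ c, Tr π g c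

lemma Tp_update (π : Perm S) (U : S → M2 R) (u : S) : ∃ P : M2 R,
    ∀ G, Tp π (update U u G) = (G * P).trace := by
  obtain ⟨P, hP⟩ := Tr_update' π U u
  refine ⟨(∏ c ∈ univ.erase (o π u), Tr π U c) • P, fun G => ?_⟩
  rw [Tp, ← mul_prod_erase _ _ (mem_univ (o π u)), hP, Matrix.mul_smul, trace_smul, smul_eq_mul,
    mul_comm]
  congr 1
  exact prod_congr rfl fun c hc => Tr_congr π fun v hv =>
    update_of_ne (fun h => ne_of_mem_erase hc (by rw [← hv, h])) _ _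

/-- rank-one vertex matrix. -/
def r1 (u w : R) : M2 R := !![1, w; u, u * w]

lemma Pk_r1 (u w : ℕ → R) (k : ℕ) : Pk (fun i => r1 (u i) (w i)) (k + 1) =
    (∏ i ∈ range k, (1 + u i * w (i + 1))) • r1 (u k) (w 0) := by
  induction k with
  | zero => simp [Pk_succ, Pk_zero]
  | succ k ih =>
    rw [Pk_succ, ih, prod_range_succ, Matrix.mul_smul, mul_smul]
    congr 1
    ext i j; fin_cases i <;> fin_cases j <;> simp [r1] <;> ring

lemma Tp_r1 (π : Perm S) (u w : S → R) :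
    Tp π (fun v => r1 (u v) (w v)) = ∏ v, (1 + u v * w (π v)) := by
  rw [Tp, ← prod_fiberwise univ (o π)]
  refine prod_congr rfl fun c _ => ?_
  obtain ⟨x, rfl⟩ := o_surj π c
  obtain ⟨k, hk⟩ : ∃ k, per π x = k + 1 := ⟨_, (Nat.succ_pred_eq_of_pos (per_pos π x)).symm⟩
  have h0 : π (π^[k] x) = x := by
    have := it_per π x
    rwa [hk, Function.iterate_succ_apply'] at this
  rw [Tr_eq, Pc, prod_ob, hk, Pk_r1 (fun i => u (π^[i] x)) fun i => w (π^[i] x), prod_range_succ,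
    h0, trace_smul, smul_eq_mul]
  simp only [Function.iterate_succ_apply', Function.iterate_zero, id]
  simp [r1, trace_fin_two]

lemma Tp_map {R' : Type} [CommRing R'] (f : R →+* R') (π : Perm S) (s t b : S → R) :
    f (Tp π fun v => mv (s v) (t v) (b v)) = Tp π fun v => mv (f (s v)) (f (t v)) (f (b v)) := by
  simp only [Tp, map_prod, Tr_map]
  refine prod_congr rfl fun c _ => ?_
  congr 1
  funext v; ext i j; fin_cases i <;> fin_cases j <;> simp [mv]

lemma Tp_gauge (π : Perm S) {l l' : R} (h : l * l' = 1) (s t b : S → R) :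
    Tp π (fun v => mv (l * s v) (l' * t v) (b v)) = Tp π fun v => mv (s v) (t v) (b v) := by
  unfold Tp
  refine prod_congr rfl fun c _ => ?_
  rw [← Tr_conj (D := !![1, 0; 0, l]) (D' := !![1, 0; 0, l'])
    (by ext i j; fin_cases i <;> fin_cases j <;> simp [mul_comm l', h])
    (by ext i j; fin_cases i <;> fin_cases j <;> simp [h]) π fun v => mv (s v) (t v) (b v)]
  congr 1
  funext v; ext i j; fin_cases i <;> fin_cases j <;> simp [mv, mul_comm]
  linear_combination (-b v) * h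

/-- contraction of a multilinear functional at every point. -/
theorem ml_ind (L : (S → M2 ℂ) → ℂ)
    (hL : ∀ U u, ∃ P : M2 ℂ, ∀ G, L (update U u G) = (G * P).trace) (A : ℂ → Prop) (hA : ∃ z, A z)
    (h0 : ∀ u w : S → ℂ, (∀ v, A (u v)) → (∀ v, A (w v)) → L (fun v => r1 (u v) (w v)) ≠ 0)
    {φ : S → M2 ℂ} (hφ : ∀ v (P : M2 ℂ), (∀ u w, A u → A w → (r1 u w * P).trace ≠ 0) →
      (φ v * P).trace ≠ 0) : L φ ≠ 0 := by
  have key : ∀ B : Finset S, ∀ u w : S → ℂ, (∀ v, A (u v)) → (∀ v, A (w v)) →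
      L (fun v => if v ∈ B then φ v else r1 (u v) (w v)) ≠ 0 := by
    intro B
    induction B using Finset.induction_on with
    | empty => simpa using h0
    | insert x B hx ih =>
      intro u w hu hw
      obtain ⟨P, hc⟩ := hL (fun z => if z ∈ B then φ z else r1 (u z) (w z)) x
      have e : (fun z => if z ∈ insert x B then φ z else r1 (u z) (w z)) =
          update (fun z => if z ∈ B then φ z else r1 (u z) (w z)) x (φ x) := by
        funext z
        rcases eq_or_ne z x with rfl | h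
        · simp
        · simp [h]
      rw [e, hc]
      refine hφ x _ fun a b ha hb => ?_
      have hup : ∀ (f : S → ℂ) (c : ℂ), (∀ v, A (f v)) → A c → ∀ v, A (update f x c v) :=
        fun f c hf hc' z => by
          rcases eq_or_ne z x with rfl | h
          · simpa using hc'
          · rw [update_of_ne h]; exact hf z
      have h2 := ih _ _ (hup u a hu ha) (hup w b hw hb)
      have e' : (fun z => if z ∈ B then φ z else r1 (update u x a z) (update w x b z)) =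
          update (fun z => if z ∈ B then φ z else r1 (u z) (w z)) x (r1 a b) := by
        funext z
        rcases eq_or_ne z x with rfl | h
        · simp [hx]
        · simp [update_of_ne h]
      rwa [e', hc] at h2
  obtain ⟨z, hz⟩ := hA
  simpa using key univ (fun _ => z) (fun _ => z) (fun _ => hz) fun _ => hz

/-- restriction of a source to the green points. -/
def gr (s : S → ℝ) (ω : S → Option Bool) : S → ℝ := fun v => if ω v = none then s v else 0

/-- red/green splitting of the generating function. -/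
lemma Tp_split (π : Perm S) (s t b : S → ℝ) :
    Tp π (fun v => mv (s v) (t v) (b v)) = ∑ ω : S → Option Bool,
      if ∀ v, ω (π v) = ω v then zr b ω * Ps π (gr s ω) (gr t ω) (zg b ω) else 0 := by
  rw [sum_inv_prod π _ fun g k => if k = none then
    Tr π (fun v => mv (s v) (t v) (b v)) g - 2 * pr π b g else pr π b g]
  · refine prod_congr rfl fun g _ => ?_
    simp only [Fintype.sum_option, Fintype.sum_bool]; simp; ring
  · intro c
    rw [zr_comp, Ps, ← prod_mul_distrib]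
    refine prod_congr rfl fun g _ => ?_
    have e := pr_zg π b c g
    rw [pr] at e
    rw [e]
    split_ifs with h
    · rw [one_mul, Tr_congr π (g' := fun v => mv (s v) (t v) (b v))]
      intro v hv; simp [gr, zg, hv, h]
    · rw [Tr_congr π (g' := fun v => mv 0 0 0), Tr_up π (fun _ => 0) fun _ => 0,
        pr_zero (a := fun _ => 0) (o_bp g) rfl]
      · simp
      · intro v hv; simp [gr, zg, hv, h]

lemma Tp_zero (π : Perm S) (t b : S → ℝ) :
    Tp π (fun v => mv 0 (t v) (b v)) = ∏ c, (1 + pr π b c) := by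
  simp only [Tp, Tr_up]

/-- closed colourings give a lower bound. -/
lemma Tp_lb (π : Perm S) {s t b : S → ℝ} (hs : ∀ v, 0 ≤ s v) (ht : ∀ v, 0 ≤ t v)
    (hb : ∀ v, 0 ≤ b v) :
    ∏ c, (1 + pr π (fun v => b v + s v * t v) c) ≤ Tp π fun v => mv (s v) (t v) (b v) := by
  refine prod_le_prod (fun c _ => add_nonneg zero_le_one (pr_nonneg
    (fun v => add_nonneg (hb v) (mul_nonneg (hs v) (ht v))) c)) fun c _ => ?_
  obtain ⟨x, rfl⟩ := o_surj π c
  have hg : ∀ i a c, 0 ≤ mv (s (π^[i] x)) (t (π^[i] x)) (b (π^[i] x)) a c :=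
    fun i => mv_nonneg (hs _) (ht _) (hb _)
  have p0 := Pk_path hg (fun _ => 0) (per π x)
  have p1 := Pk_path hg (fun _ => 1) (per π x)
  rw [Tr_eq, Pc, trace_fin_two, pr, prod_ob]
  refine add_le_add (le_trans (le_of_eq ?_) p0) (le_trans (le_of_eq ?_) p1)
  · exact (prod_eq_one fun i _ => by simp [mv]).symm
  · exact prod_congr rfl fun i _ => by simp [mv]

end gen

variable {Λ : Type} [Fintype Λ] [DecidableEq Λ] {T : ℕ} [NeZero T] (ex ey : Fin T → Λ)
variable {p : Fin T → ℝ} {b : Fin T × Λ → ℝ}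

theorem half (hp : ∀ s, 0 ≤ p s ∧ p s ≤ 1) (hb : ∀ v, 0 ≤ b v) {σ τ : Fin T × Λ → ℂ}
    (hσ : ∀ v, 0 < (σ v).re) (hτ : ∀ v, 0 < (τ v).re) :
    ∑ ξ, (Pw p ξ : ℂ) * Tp (Sg ex ey ξ) (fun v => mv (σ v) (τ v) (b v)) ≠ 0 := by
  refine ml_ind (fun g => ∑ ξ, (Pw p ξ : ℂ) * Tp (Sg ex ey ξ) g) (fun U u => ?_)
    (fun z => 0 < z.re) ⟨1, by simp⟩ (fun u w hu hw => ?_) fun v P h => ?_
  · choose P hP using fun ξ => Tp_update (Sg ex ey ξ) U u
    refine ⟨∑ ξ, (Pw p ξ : ℂ) • P ξ, fun G => ?_⟩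
    simp only [hP, Matrix.mul_sum, trace_sum, Matrix.mul_smul, trace_smul, smul_eq_mul]
  · have h2 := LY0.prod_two fun s b => (wb (p s) b : ℂ) *
      ∏ x, (1 + u (s, x) * w (s + 1, sg (ex s) (ey s) b x))
    simp only [Tp_r1]
    simp only [Fintype.prod_prod_type, Sg_apply, Pw, Complex.ofReal_prod,
      ← prod_mul_distrib, ← h2]
    refine prod_ne_zero_iff.2 fun s _ => ?_
    simpa [wb, sg] using step_ne (fun z => 0 < z.re) (fun _ _ => one_add_ne_re)
      (fun _ _ _ _ a b c d => two_half a b c d (hp s).1 (hp s).2) (ex s) (ey s)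
      (u := fun x => u (s, x)) (w := fun x => w (s + 1, x)) (fun x => hu _) fun x => hw _
  · have := asano_half (a := P 0 0) (b := P 1 0) (c := P 0 1) (d := P 1 1) (fun u w hu hw h' =>
      h u w hu hw (by simp [r1, trace_fin_two, mul_apply, vecMul, dotProduct]; linear_combination h'))
      (hσ v) (hτ v) (hb v)
    intro h'; apply this
    simp [mv, trace_fin_two, mul_apply, vecMul, dotProduct] at h'
    linear_combination h'

theorem half' (hp : ∀ s, 0 ≤ p s ∧ p s ≤ 1) (hb : ∀ v, 0 ≤ b v) {s t : Fin T × Λ → ℝ}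
    (hs : ∀ v, 0 < s v) (ht : ∀ v, 0 < t v) {w : ℂ} (hw0 : w ≠ 0) (hw : ¬ (w.im = 0 ∧ w.re < 0)) :
    ∑ ξ, (Pw p ξ : ℂ) * Tp (Sg ex ey ξ) (fun v => mv (w * s v) (t v) (b v)) ≠ 0 := by
  obtain ⟨r, hr, hr0⟩ : ∃ r : ℂ, r ^ 2 = w ∧ 0 ≤ r.re := by
    obtain ⟨r, hr⟩ := IsAlgClosed.exists_pow_nat_eq w (n := 2) (by norm_num)
    rcases le_total 0 r.re with h0 | h0
    · exact ⟨r, hr, h0⟩
    · exact ⟨-r, by rw [neg_sq, hr], by simpa using h0⟩
  have hne : r ≠ 0 := fun h => hw0 (by rw [← hr, h]; simp)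
  have hpos : 0 < r.re := hr0.lt_of_ne fun hp => hw (by
    have him : r.im ≠ 0 := fun h => hne (Complex.ext hp.symm h)
    rw [← hr, pow_two, Complex.mul_im, Complex.mul_re, ← hp]
    exact ⟨by simp, by simpa using him⟩)
  have h := half ex ey hp hb (σ := fun v => r * s v) (τ := fun v => r * t v)
    (fun v => by rw [Complex.re_mul_ofReal]; exact mul_pos hpos (hs v))
    (fun v => by rw [Complex.re_mul_ofReal]; exact mul_pos hpos (ht v))
  simp only [← Tp_gauge _ (mul_inv_cancel₀ hne) (fun v => r * s v), ← mul_assoc, ← pow_two, hr,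
    inv_mul_cancel₀ hne, one_mul] at h
  exact h

/-! ### the environment representation with general weights `b` -/

/-- partition function. -/
noncomputable def Zt (p : Fin T → ℝ) (b : Fin T × Λ → ℝ) : ℝ :=
  ∑ ξ, Pw p ξ * ∏ c, (1 + pr (Sg ex ey ξ) b c)

/-- weight of the coins compatible with an environment. -/
def cw (p : Fin T → ℝ) (ω : Env T Λ) : ℝ := ∏ s, (wc ex ey p ω s true + wc ex ey p ω s false)

/-- weight of an environment (`none` = green, `some _` = red). -/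
noncomputable def nv (p : Fin T → ℝ) (b : Fin T × Λ → ℝ) (ω : Env T Λ) : ℝ :=
  zr b ω * cw ex ey p ω * WN.Zg ex ey (th ex ey p ω) (zg b ω)

/-- Green function of an environment, entry `(target, source)`. -/
noncomputable def Ge (p : Fin T → ℝ) (b : Fin T × Λ → ℝ) (ω : Env T Λ) :
    Matrix (Fin T × Λ) (Fin T × Λ) ℝ :=
  WN.Gi ex ey (th ex ey p ω) (zg b ω) * Kb ex ey (th ex ey p ω)

/-- conditioning the coins on the environment. -/
lemma cond_env (hp : ∀ s, 0 ≤ p s ∧ p s ≤ 1) (ω : Env T Λ) (X : (Fin T → Bool) → ℝ) :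
    ∑ ξ, Pw p ξ * (if ∀ v, ω (Sg ex ey ξ v) = ω v then X ξ else 0) =
      cw ex ey p ω * ∑ ξ, Pw (th ex ey p ω) ξ * X ξ := by
  rw [mul_sum]
  refine sum_congr rfl fun ξ _ => ?_
  have h1 : ∏ s, wc ex ey p ω s (ξ s) = if ∀ v, ω (Sg ex ey ξ v) = ω v then Pw p ξ else 0 := by
    simp only [wc, prod_ite_zero, mem_univ, true_imp_iff, Prod.forall, Sg_apply, Pw]
  have h2 : ∏ s, wc ex ey p ω s (ξ s) = cw ex ey p ω * Pw (th ex ey p ω) ξ := by
    rw [cw, Pw, ← prod_mul_distrib]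
    refine prod_congr rfl fun s _ => ?_
    have := th_mul ex ey hp ω s
    cases ξ s <;> simp only [wb, Bool.false_eq_true, if_false, if_true] <;> linarith
  rw [← mul_assoc, ← h2, h1]
  split_ifs <;> simp

lemma cw_nonneg (hp : ∀ s, 0 ≤ p s ∧ p s ≤ 1) (ω : Env T Λ) : 0 ≤ cw ex ey p ω :=
  prod_nonneg fun s _ => add_nonneg (wc_nonneg ex ey hp ω s _) (wc_nonneg ex ey hp ω s _)

lemma pr_lt_one (hb : ∀ v, 0 ≤ b v ∧ b v ≤ 1) (hb0 : ∀ x, b (0, x) < 1) (ξ : Fin T → Bool)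
    (g : Orb (Sg ex ey ξ)) : pr (Sg ex ey ξ) b g < 1 := by
  obtain ⟨x, hx⟩ := exists_time ex ey ξ g 0
  rw [pr, ← mul_prod_erase _ _ (show (0, x) ∈ univ.filter fun v => o (Sg ex ey ξ) v = g from
    mem_filter.2 ⟨mem_univ _, hx⟩)]
  exact (mul_le_of_le_one_right (hb _).1
    (prod_le_one (fun v _ => (hb v).1) fun v _ => (hb v).2)).trans_lt (hb0 x)

lemma det_mat_pos' (hb : ∀ v, 0 ≤ b v ∧ b v ≤ 1) (hb0 : ∀ x, b (0, x) < 1) (ξ : Fin T → Bool) :
    0 < (mat (Sg ex ey ξ) (fun _ => 1) b).det := by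
  rw [det_mat]
  refine prod_pos fun c _ => ?_
  rw [pr_one fun _ _ => rfl, sub_pos]
  exact pr_lt_one ex ey hb hb0 ξ c

lemma Zg_eq (p : Fin T → ℝ) (b : Fin T × Λ → ℝ) :
    WN.Zg ex ey p b = ∑ ξ, Pw p ξ * (mat (Sg ex ey ξ) (fun _ => 1) b).det := by
  simp only [mat_eq, avg_det, WN.Zg]

lemma Zg_pos (hp : ∀ s, 0 ≤ p s ∧ p s ≤ 1) (hb : ∀ v, 0 ≤ b v ∧ b v ≤ 1)
    (hb0 : ∀ x, b (0, x) < 1) : 0 < WN.Zg ex ey p b := by
  rw [Zg_eq]
  have hN := det_mat_pos' ex ey hb hb0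
  obtain ⟨ξ, -, hξ⟩ := exists_ne_zero_of_sum_ne_zero ((sum_Pw p).trans_ne one_ne_zero)
  exact sum_pos' (fun ξ _ => mul_nonneg (Pw_nonneg hp ξ) (hN ξ).le)
    ⟨ξ, mem_univ _, mul_pos ((Pw_nonneg hp ξ).lt_of_ne hξ.symm) (hN ξ)⟩

lemma zg_mem (hb : ∀ v, 0 ≤ b v ∧ b v ≤ 1) (ω : Env T Λ) (v : Fin T × Λ) :
    0 ≤ zg b ω v ∧ zg b ω v ≤ 1 := by
  unfold zg; split_ifs; exacts [hb v, ⟨le_rfl, zero_le_one⟩]

lemma zg_lt (hb0 : ∀ x, b (0, x) < 1) (ω : Env T Λ) (x : Λ) : zg b ω (0, x) < 1 := by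
  unfold zg; split_ifs; exacts [hb0 x, zero_lt_one]

lemma nv_nonneg (hp : ∀ s, 0 ≤ p s ∧ p s ≤ 1) (hb : ∀ v, 0 ≤ b v ∧ b v ≤ 1)
    (hb0 : ∀ x, b (0, x) < 1) (ω : Env T Λ) : 0 ≤ nv ex ey p b ω :=
  mul_nonneg (mul_nonneg (zr_nonneg (fun v => (hb v).1) ω) (cw_nonneg ex ey hp ω))
    (Zg_pos ex ey (th_mem ex ey hp ω) (zg_mem hb ω) (zg_lt hb0 ω)).le

lemma nv_eq (hp : ∀ s, 0 ≤ p s ∧ p s ≤ 1) (b : Fin T × Λ → ℝ) (ω : Env T Λ) :
    nv ex ey p b ω = ∑ ξ, Pw p ξ *
      if ∀ v, ω (Sg ex ey ξ v) = ω v then zr b ω * (gm (Sg ex ey ξ) b ω).det else 0 := by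
  rw [cond_env ex ey hp, nv, Zg_eq]
  simp only [mul_sum, gm]
  exact sum_congr rfl fun ξ _ => by ring

/-- weight of the event "all points of `X` are red". -/
lemma sum_nv_red (hp : ∀ s, 0 ≤ p s ∧ p s ≤ 1) (b : Fin T × Λ → ℝ) (X : Finset (Fin T × Λ)) :
    ∑ ω, nv ex ey p b ω * (if ∀ v ∈ X, ω v ≠ none then 1 else 0) = ∑ ξ, Pw p ξ *
      ∏ g, if g ∈ X.image (o (Sg ex ey ξ)) then 2 * pr (Sg ex ey ξ) b g
        else 1 + pr (Sg ex ey ξ) b g := by
  simp only [nv_eq ex ey hp, sum_mul, ← sumR0, mul_sum]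
  rw [sum_comm]
  refine sum_congr rfl fun ξ _ => sum_congr rfl fun ω _ => ?_
  split_ifs <;> simp

lemma sum_nv (hp : ∀ s, 0 ≤ p s ∧ p s ≤ 1) (b : Fin T × Λ → ℝ) :
    ∑ ω, nv ex ey p b ω = Zt ex ey p b := by
  simpa [Zt] using sum_nv_red ex ey hp b ∅

lemma Zt_pos (hp : ∀ s, 0 ≤ p s ∧ p s ≤ 1) (hb : ∀ v, 0 ≤ b v) : 0 < Zt ex ey p b := by
  have : ∑ ξ, Pw p ξ * 1 ≤ Zt ex ey p b := sum_le_sum fun ξ _ => mul_le_mul_of_nonneg_left
    (by rw [← sumD_eq]; exact one_le_sumD hb _) (Pw_nonneg hp ξ)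
  simp only [mul_one, sum_Pw] at this
  linarith

/-- the annealed two-point form. -/
noncomputable def E1 (p : Fin T → ℝ) (b s t : Fin T × Λ → ℝ) : ℝ :=
  ∑ ω, nv ex ey p b ω * (gr t ω ⬝ᵥ Ge ex ey p b ω *ᵥ gr s ω)

/-- the generating function with sources `s` and sinks `t`. -/
noncomputable def Ft (p : Fin T → ℝ) (b s t : Fin T × Λ → ℝ) : ℝ :=
  ∑ ξ, Pw p ξ * Tp (Sg ex ey ξ) fun v => mv (s v) (t v) (b v)

variable {s t : Fin T × Λ → ℝ}

lemma Ft_deriv (hp : ∀ s, 0 ≤ p s ∧ p s ≤ 1) (hb : ∀ v, 0 ≤ b v ∧ b v ≤ 1)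
    (hb0 : ∀ x, b (0, x) < 1) (s t : Fin T × Λ → ℝ) :
    HasDerivAt (fun w => Ft ex ey p b (fun v => w * s v) t) (E1 ex ey p b s t) 0 := by
  have e : ∀ w, Ft ex ey p b (fun v => w * s v) t = ∑ ω : Env T Λ, zr b ω * cw ex ey p ω *
      ∑ ξ, Pw (th ex ey p ω) ξ * Ps (Sg ex ey ξ) (fun v => w * gr s ω v) (gr t ω) (zg b ω) := by
    intro w
    simp only [Ft, Tp_split, mul_sum (s := univ (α := Env T Λ))]
    rw [sum_comm]
    refine sum_congr rfl fun ω _ => ?_
    have : gr (fun v => w * s v) ω = fun v => w * gr s ω v := by funext v; simp [gr]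
    rw [cond_env ex ey hp, this]
    simp only [mul_sum]
    exact sum_congr rfl fun ξ _ => by ring
  simp only [e]
  refine HasDerivAt.fun_sum fun ω _ => ?_
  have hN := det_mat_pos' ex ey (zg_mem hb ω) (zg_lt hb0 ω)
  refine ((HasDerivAt.fun_sum fun ξ _ => (Ps_deriv (Sg ex ey ξ) (gr s ω) (gr t ω) (zg b ω)
    (hN ξ).ne').const_mul (Pw (th ex ey p ω) ξ)).const_mul _).congr_deriv ?_
  have hZ := (Zg_pos ex ey (th_mem ex ey hp ω) (zg_mem hb ω) (zg_lt hb0 ω)).ne'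
  have h := avg_det ex ey (th ex ey p ω) (diagonal (zg b ω) + vecMulVec (gr s ω) (gr t ω))
  simp only [Matrix.mul_add, mul_vecMulVec, ← sub_sub] at h
  simp only [mul_sub, sum_sub_distrib, ← Zg_eq]
  simp only [mat_eq, h]
  rw [det_rank_one hZ, nv, Ge, WN.Gi, ← mulVec_mulVec, WN.Zg]
  ring

theorem N2_strict (hp : ∀ s, 0 ≤ p s ∧ p s ≤ 1) (hb : ∀ v, 0 ≤ b v ∧ b v ≤ 1)
    (hb0 : ∀ x, b (0, x) < 1) (hs : ∀ v, 0 < s v) (ht : ∀ v, 0 < t v) :
    Ft ex ey p b s t ≤ Zt ex ey p b * Real.exp (E1 ex ey p b s t / Zt ex ey p b) := by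
  set F : ℝ → ℝ := fun w => Ft ex ey p b (fun v => w * s v) t with hF
  have hF0 : F 0 = Zt ex ey p b := by simp only [hF, zero_mul, Ft, Tp_zero, Zt]
  have hD0 := Zt_pos ex ey hp fun v => (hb v).1
  have hd := Ft_deriv ex ey hp hb hb0 s t
  set Q : Polynomial ℂ := ∑ ξ, Polynomial.C (Pw p ξ : ℂ) * Tp (Sg ex ey ξ) fun v =>
    mv (Polynomial.X * Polynomial.C (s v : ℂ)) (Polynomial.C (t v : ℂ)) (Polynomial.C (b v : ℂ))
    with hQ
  have hQe : ∀ z : ℂ, Q.eval z = ∑ ξ, (Pw p ξ : ℂ) * Tp (Sg ex ey ξ) fun v =>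
      mv (z * s v) (t v : ℂ) (b v : ℂ) := by
    intro z
    rw [← Polynomial.coe_evalRingHom, hQ, map_sum]
    simp only [map_mul, Tp_map, Polynomial.coe_evalRingHom, Polynomial.eval_C, Polynomial.eval_X]
  have hQr : ∀ w : ℝ, Q.eval (w : ℂ) = (F w : ℂ) := by
    intro w
    rw [hQe, hF]
    simp only [Ft]
    rw [← Complex.ofRealHom_eq_coe (∑ ξ, _), map_sum]
    simp only [map_mul, Tp_map, Complex.ofRealHom_eq_coe]
  have hQd : Q.derivative.eval 0 = ((E1 ex ey p b s t : ℝ) : ℂ) := by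
    have h1 := (Q.hasDerivAt ((0 : ℝ) : ℂ)).comp_ofReal
    simp only [hQr] at h1
    exact h1.unique hd.ofReal_comp
  have h0 := hQr 0
  have h1 := hQr 1
  rw [Complex.ofReal_zero, hF0] at h0
  rw [Complex.ofReal_one] at h1
  have L := LY.L4 Q fun z hz => by
    by_cases hz0 : z = 0
    · rw [hz0, h0]; exact_mod_cast hD0.ne'
    · rw [hQe]
      exact half' ex ey hp (fun v => (hb v).1) hs ht hz0 hz
  rw [h0, h1, hQd, ← Complex.ofReal_div, Complex.ofReal_re, Complex.norm_real, Complex.norm_real,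
    Real.norm_of_nonneg hD0.le] at L
  simpa only [hF, one_mul] using (le_abs_self _).trans L

/-- **(N)** Gaussian domination with sources and sinks at all space-time points. -/
theorem N2 (hp : ∀ s, 0 ≤ p s ∧ p s ≤ 1) (hb : ∀ v, 0 ≤ b v ∧ b v ≤ 1)
    (hb0 : ∀ x, b (0, x) < 1) (hs : ∀ v, 0 ≤ s v) (ht : ∀ v, 0 ≤ t v) :
    Ft ex ey p b s t ≤ Zt ex ey p b * Real.exp (E1 ex ey p b s t / Zt ex ey p b) := by
  have cL : Continuous fun e : ℝ => Ft ex ey p b (fun v => s v + e) fun v => t v + e := by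
    refine continuous_finsetSum _ fun ξ _ => continuous_const.mul
      (continuous_finsetProd _ fun c _ => Tr_cont _ (fun v => ?_) c)
    refine continuous_matrix fun i j => ?_
    fin_cases i <;> fin_cases j <;> simp [mv] <;> fun_prop
  have cg : ∀ (s : Fin T × Λ → ℝ) ω, Continuous fun e : ℝ => gr (fun v => s v + e) ω :=
    fun s ω => continuous_pi fun v => by simp only [gr]; split_ifs <;> fun_prop
  have cE : Continuous fun e : ℝ => E1 ex ey p b (fun v => s v + e) fun v => t v + e :=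
    continuous_finsetSum _ fun ω _ => continuous_const.mul
      ((cg t ω).dotProduct (continuous_const.matrix_mulVec (cg s ω)))
  have cR : Continuous fun e : ℝ => Zt ex ey p b *
      Real.exp (E1 ex ey p b (fun v => s v + e) (fun v => t v + e) / Zt ex ey p b) := by
    fun_prop
  have key := le_of_tendsto_of_tendsto (b := nhdsWithin (0 : ℝ) (Set.Ioi 0))
    (cL.continuousAt.tendsto.mono_left nhdsWithin_le_nhds)
    (cR.continuousAt.tendsto.mono_left nhdsWithin_le_nhds) (by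
      filter_upwards [self_mem_nhdsWithin] with e he
      exact N2_strict ex ey hp hb hb0 (fun v => add_pos_of_nonneg_of_pos (hs v) he)
        fun v => add_pos_of_nonneg_of_pos (ht v) he)
  simpa only [add_zero] using key

/-- raising the weights by `s * t` costs at most `exp (E₁ / Z)`. -/
theorem Zt_raise (hp : ∀ s, 0 ≤ p s ∧ p s ≤ 1) (hb : ∀ v, 0 ≤ b v ∧ b v ≤ 1)
    (hb0 : ∀ x, b (0, x) < 1) (hs : ∀ v, 0 ≤ s v) (ht : ∀ v, 0 ≤ t v) :
    Zt ex ey p (fun v => b v + s v * t v) ≤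
      Zt ex ey p b * Real.exp (E1 ex ey p b s t / Zt ex ey p b) :=
  le_trans (sum_le_sum fun ξ _ => mul_le_mul_of_nonneg_left
    (Tp_lb _ hs ht fun v => (hb v).1) (Pw_nonneg hp ξ)) (N2 ex ey hp hb hb0 hs ht)

lemma down_le {S : Type} [Fintype S] [DecidableEq S] (π : Perm S) {b a : S → ℝ}
    (hb : ∀ v, 0 ≤ b v ∧ b v ≤ 1) (ha : ∀ v, 0 ≤ a v) (X : Finset S) :
    (∏ v ∈ X, a v) * ∏ g, (if g ∈ X.image (o π) then pr π b g else 1 + pr π b g) ≤
      ∏ g, (1 + pr π (fun v => b v + a v) g) := by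
  have hba : ∀ v, 0 ≤ b v + a v := fun v => add_nonneg (hb v).1 (ha v)
  rw [← sumD0, ← sumD_eq, mul_sum]
  refine sum_le_sum fun D _ => ?_
  have hz : 0 ≤ zd (fun v => b v + a v) D :=
    prod_nonneg fun v _ => by split_ifs; exacts [hba v, zero_le_one]
  split_ifs with h1 h2
  · rw [mul_one, show ∏ v ∈ X, a v = ∏ v, if v ∈ X then a v else 1 by
      rw [prod_ite_mem, univ_inter], zd, zd, ← prod_mul_distrib]
    refine prod_le_prod (fun v _ => mul_nonneg (by split_ifs; exacts [ha v, zero_le_one])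
      (by split_ifs; exacts [(hb v).1, zero_le_one])) fun v _ => ?_
    by_cases hv : v ∈ X
    · rw [if_pos hv, if_pos (h2 v hv), if_pos (h2 v hv)]
      nlinarith [(hb v).1, (hb v).2, ha v]
    · rw [if_neg hv, one_mul]
      split_ifs
      · linarith [ha v]
      · exact le_rfl
  · simpa using hz
  · simp

/-- all points of `X` are down: weighted Newton inequality. -/
theorem down_bound (hp : ∀ s, 0 ≤ p s ∧ p s ≤ 1) (hb : ∀ v, 0 ≤ b v ∧ b v ≤ 1)
    (hb0 : ∀ x, b (0, x) < 1) (hs : ∀ v, 0 ≤ s v) (ht : ∀ v, 0 ≤ t v) (X : Finset (Fin T × Λ)) :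
    (∏ v ∈ X, s v * t v) * ∑ ξ, Pw p ξ * ∏ g, (if g ∈ X.image (o (Sg ex ey ξ)) then
      pr (Sg ex ey ξ) b g else 1 + pr (Sg ex ey ξ) b g) ≤
      Zt ex ey p b * Real.exp (E1 ex ey p b s t / Zt ex ey p b) := by
  refine le_trans ?_ (Zt_raise ex ey hp hb hb0 hs ht)
  rw [mul_sum]
  refine sum_le_sum fun ξ _ => ?_
  rw [mul_left_comm]
  exact mul_le_mul_of_nonneg_left (down_le _ hb (fun v => mul_nonneg (hs v) (ht v)) X)
    (Pw_nonneg hp ξ)

/-- all points of `X` are red. -/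
theorem red_bound (hp : ∀ s, 0 ≤ p s ∧ p s ≤ 1) (hb : ∀ v, 0 ≤ b v ∧ b v ≤ 1)
    (hb0 : ∀ x, b (0, x) < 1) (hs : ∀ v, 0 ≤ s v) (ht : ∀ v, 0 ≤ t v) (X : Finset (Fin T × Λ)) :
    (∏ v ∈ X, s v * t v) * ∑ ω, nv ex ey p b ω * (if ∀ v ∈ X, ω v ≠ none then 1 else 0) ≤
      2 ^ X.card * (Zt ex ey p b * Real.exp (E1 ex ey p b s t / Zt ex ey p b)) := by
  refine le_trans ?_ (mul_le_mul_of_nonneg_left (down_bound ex ey hp hb hb0 hs ht X)
    (by positivity))
  rw [mul_left_comm, sum_nv_red ex ey hp, mul_sum (s := univ) (a := (2 : ℝ) ^ X.card)]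
  refine mul_le_mul_of_nonneg_left (sum_le_sum fun ξ _ => ?_)
    (prod_nonneg fun v _ => mul_nonneg (hs v) (ht v))
  rw [mul_left_comm]
  refine mul_le_mul_of_nonneg_left (prod_le_two_pow X (fun g => ?_) (fun g => ?_) fun g => ?_)
    (Pw_nonneg hp ξ)
  · have := pr_nonneg (π := Sg ex ey ξ) (fun v => (hb v).1) g; split_ifs <;> linarith
  · have := pr_nonneg (π := Sg ex ey ξ) (fun v => (hb v).1) g; split_ifs <;> linarith
  · split_ifs <;> linarith

lemma E1_smul (p : Fin T → ℝ) (b s t : Fin T × Λ → ℝ) (α : ℝ) :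
    E1 ex ey p b (fun v => α * s v) t = α * E1 ex ey p b s t := by
  rw [E1, E1, mul_sum]
  refine sum_congr rfl fun ω _ => ?_
  have : gr (fun v => α * s v) ω = α • gr s ω := by funext v; simp [gr]
  rw [this, mulVec_smul, dotProduct_smul, smul_eq_mul]; ring

/-- `P(X red) ≤ 2^k (e q / k)^k` if `∑_{u, v ∈ X} E G(v, u) ≤ q`, `k = |X|`. -/
theorem red_pow (hp : ∀ s, 0 ≤ p s ∧ p s ≤ 1) (hb : ∀ v, 0 ≤ b v ∧ b v ≤ 1)
    (hb0 : ∀ x, b (0, x) < 1) {X : Finset (Fin T × Λ)} (hX : X.Nonempty) {q : ℝ} (hq0 : 0 ≤ q)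
    (hq : E1 ex ey p b (fun v => if v ∈ X then 1 else 0) (fun v => if v ∈ X then 1 else 0) ≤
      q * Zt ex ey p b) :
    ∑ ω, nv ex ey p b ω * (if ∀ v ∈ X, ω v ≠ none then 1 else 0) ≤
      2 ^ X.card * Zt ex ey p b * (Real.exp 1 * q / X.card) ^ X.card := by
  have hZ := Zt_pos ex ey hp fun v => (hb v).1
  refine LY.opt_lemma hX.card_pos (by positivity) hq0 fun α hα => ?_
  have i0 : ∀ v, (0 : ℝ) ≤ if v ∈ X then 1 else 0 := fun v => by split_ifs <;> norm_num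
  have h := red_bound ex ey hp hb hb0 (s := fun v => α * if v ∈ X then 1 else 0)
    (fun v => mul_nonneg hα.le (i0 v)) i0 X
  rw [prod_congr rfl (g := fun _ => α) fun v hv => by simp [hv], prod_const, E1_smul] at h
  refine h.trans ?_
  rw [mul_assoc]
  gcongr
  rw [mul_div_assoc]
  exact mul_le_mul_of_nonneg_left ((div_le_iff₀ hZ).2 hq) hα.le

end Crest.Agent.N337.DL
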